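import Vale.Agent.P251EJ.DefsA
import Vale.Agent.P257.H604.Log
import Vale.Agent.P221.H746.Kap

/-!
# P251EJ, block EvenB: the algebra
-/

open MvPolynomial

noncomputable section

namespace Vale.Agent.P251EJ76

open Vale.Agent.P251.F Vale.Agent.P257.H80 Vale.Agent.P221.T Vale.Agent.P221.T.H520

/-- the elements of which a non-zero integer multiple is in the image of `φ` -/
def RatIm {R A : Type*} [CommRing R] [CommRing A] (φ : R →+* A) : Subring A where
  carrier := {a | ∃ (m : ℤ) (x : R), m ≠ 0 ∧ (m : A) * a = φ x}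
  one_mem' := ⟨1, 1, one_ne_zero, by simp⟩
  zero_mem' := ⟨1, 0, one_ne_zero, by simp⟩
  mul_mem' := by
    rintro a b ⟨m, x, hm, hx⟩ ⟨n, y, hn, hy⟩
    refine ⟨m * n, x * y, mul_ne_zero hm hn, ?_⟩
    rw [map_mul, ← hx, ← hy]
    push_cast
    ring
  add_mem' := by
    rintro a b ⟨m, x, hm, hx⟩ ⟨n, y, hn, hy⟩
    refine ⟨m * n, n * x + m * y, mul_ne_zero hm hn, ?_⟩
    rw [map_add, map_mul, map_mul, ← hx, ← hy, map_intCast, map_intCast]
    push_cast
    ring
  neg_mem' := by
    rintro a ⟨m, x, hm, hx⟩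
    exact ⟨m, -x, hm, by rw [map_neg, ← hx, mul_neg]⟩

theorem RatIm.of_mul {R A : Type*} [CommRing R] [CommRing A] {φ : R →+* A} {m : ℤ} (hm : m ≠ 0)
    {a : A} (h : (m : A) * a ∈ RatIm φ) : a ∈ RatIm φ := by
  obtain ⟨n, x, hn, hx⟩ := h
  refine ⟨n * m, x, mul_ne_zero hn hm, ?_⟩
  rw [← hx]
  push_cast
  ring

theorem RatIm.apply {R A : Type*} [CommRing R] [CommRing A] (φ : R →+* A) (x : R) :
    φ x ∈ RatIm φ := ⟨1, x, one_ne_zero, by simp⟩

theorem isUnit_of_ploc {A : Type*} [CommRing A] (hA : PLoc 0 A) {m : ℤ} (hm : m ≠ 0) :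
    IsUnit (m : A) := by
  have h2 := hA m.natAbs (by rw [zero_dvd_iff]; exact Int.natAbs_ne_zero.2 hm)
  rcases Int.natAbs_eq m with h | h
  · rw [h, Int.cast_natCast]
    exact h2
  · rw [h, Int.cast_neg, Int.cast_natCast]
    exact h2.neg

/-- a strict automorphism of the additive law over a `ℚ`-algebra is trivial -/
theorem eq_one_of_smul {A : Type*} [CommRing A] (hA : PLoc 0 A) {g : InvSeries A}
    (hg : g ∈ strict A) (h : g • addLaw A = addLaw A) : g = 1 := by
  rw [InvSeries.smul_eq_iff_isHom, Vale.Agent.P257.H604.isHom_addLaw_iff g.val g.cc] at h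
  apply InvSeries.ext_c
  rintro (_ | n)
  · rw [InvSeries.c_zero_one]
    exact hg
  · rw [InvSeries.c_one_succ]
    have h1 := h 1 (n + 1) le_rfl (by omega)
    rw [Nat.choose_one_right, show 1 + (n + 1) = n + 1 + 1 by omega] at h1
    exact (hA (n + 1 + 1) (by rw [zero_dvd_iff]; omega)).mul_left_cancel (by
      rw [mul_zero]; exact h1)

variable {p : ℕ} [hp : Fact p.Prime]

/-- the exponential of a Hazewinkel law over a `ℚ`-algebra -/
theorem c_mem {A : Type*} [CommRing A] (hA : PLoc 0 A) (φ : MvPolynomial ℕ ℤ →+* A)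
    {g : InvSeries A} (hg : g ∈ strict A) (h : g • addLaw A = (haz p).map φ) (i : ℕ) :
    g.c i ∈ RatIm φ := by
  let ρ : ℚ →+* A := IsLocalization.lift (M := nonZeroDivisors ℤ) (S := ℚ)
    (g := Int.castRingHom A) fun y => isUnit_of_ploc hA (nonZeroDivisors.coe_ne_zero y)
  let ψ : MvPolynomial ℕ ℚ →+* A := eval₂Hom ρ fun i => φ (X i)
  have h1 : ψ.comp hzI = φ := by
    apply MvPolynomial.ringHom_ext
    · intro r
      simp
    · intro i
      simp [ψ]
  have h2 : (haz p).map φ = (InvSeries.map ψ (hazInv p))⁻¹ • addLaw A := by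
    rw [← h1, ← Law.map_map, haz_map, hazQ, InvSeries.map_smul, map_inv, map_addLaw]
  have h3 : InvSeries.map ψ (hazInv p) * g = 1 :=
    eq_one_of_smul hA ((strict A).mul_mem (map_mem_strict ψ (hazInv_mem p)) hg) (by
      rw [mul_smul, h, h2, smul_inv_smul])
  have h4 : g = InvSeries.map ψ (hazInv p)⁻¹ := by
    rw [map_inv]
    exact eq_inv_of_mul_eq_one_right h3
  rw [h4, InvSeries.c_map]
  generalize ((hazInv p)⁻¹).c i = z
  induction z using MvPolynomial.induction_on with
  | C q =>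
    refine RatIm.of_mul (m := q.den) (by exact_mod_cast q.den_nz) ?_
    have h5 : ((q.den : ℤ) : A) * ψ (C q) = (q.num : A) := by
      rw [← map_intCast ψ, ← map_intCast ψ, ← map_mul, ← map_intCast (C : ℚ →+* _),
        ← map_intCast (C : ℚ →+* _), ← map_mul]
      congr 2
      rw [Int.cast_natCast, mul_comm]
      exact Rat.mul_den_eq_num q
    rw [h5]
    exact intCast_mem _ _
  | add a b ha hb =>
    rw [map_add]
    exact add_mem ha hb
  | mul_X a i ha =>
    rw [map_mul]
    refine mul_mem ha ?_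
    have h5 : ψ (X i) = φ (X i) := eval₂Hom_X' _ _ _
    rw [h5]
    exact RatIm.apply φ _

/-! ### reduction modulo `p` -/

theorem ploc_zmod : PLoc p (ZMod p) :=
  Vale.Agent.P221.H746.pLoc_of_char (ZMod.natCast_self p)

theorem int_injective : Function.Injective (Int.cast : ℤ → Z0 p) := by
  have hQ : PLoc p ℚ := fun m hm => isUnit_iff_ne_zero.2 (by
    rintro h
    obtain rfl : m = 0 := by exact_mod_cast h
    exact hm (dvd_zero p))
  intro a b h
  have h1 := congrArg (Z0.lift hQ) h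
  rw [map_intCast, map_intCast] at h1
  exact_mod_cast h1

theorem dvd_of_red (c : Z0 p) : Z0.lift ploc_zmod c = 0 ↔ (p : Z0 p) ∣ c := by
  constructor
  · intro h
    obtain ⟨m, a, hm, ha⟩ := Z0.exists_mul c
    have h1 := congrArg (Z0.lift ploc_zmod) ha
    rw [map_mul, h, mul_zero, map_intCast, eq_comm, ZMod.intCast_zmod_eq_zero_iff_dvd] at h1
    obtain ⟨a', rfl⟩ := h1
    obtain ⟨u, hu⟩ := ploc_Z0 p m hm
    refine ⟨↑u⁻¹ * a', ?_⟩
    have h2 : c = ↑u⁻¹ * ((m : Z0 p) * c) := by rw [← hu, Units.inv_mul_cancel_left]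
    rw [h2, ha]
    push_cast
    ring
  · rintro ⟨c', rfl⟩
    rw [map_mul, map_natCast, ZMod.natCast_self, zero_mul]

theorem eq_zero_of_dvd (c : Z0 p) (h : ∀ k : ℕ, (p : Z0 p) ^ k ∣ c) : c = 0 := by
  obtain ⟨m, a, hm, ha⟩ := Z0.exists_mul c
  have h1 : ∀ k : ℕ, (p : ℤ) ^ k ∣ a := by
    intro k
    obtain ⟨c', hc'⟩ := h k
    obtain ⟨m', a', hm', ha'⟩ := Z0.exists_mul c'
    have h2 : (m' : ℤ) * a = (p : ℤ) ^ k * (m * a') := by
      apply int_injective (p := p)
      push_cast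
      rw [← ha, ← ha', hc']
      ring
    have h3 : IsCoprime ((p : ℤ) ^ k) (m' : ℤ) :=
      ((Nat.prime_iff_prime_int.1 hp.out).coprime_iff_not_dvd.2
        fun h => hm' (Int.natCast_dvd_natCast.1 h)).pow_left
    exact h3.dvd_of_dvd_mul_left ⟨_, h2⟩
  have h2 : a = 0 := by
    refine Int.eq_zero_of_abs_lt_dvd (h1 a.natAbs) ?_
    rw [Int.abs_eq_natAbs]
    exact_mod_cast Nat.lt_pow_self hp.out.one_lt
  rw [h2, Int.cast_zero] at ha
  exact (ploc_Z0 p m hm).mul_left_cancel (by rw [ha, mul_zero])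

/-- **the criterion**: injective modulo `p`, no `p`-torsion, rationally onto -/
theorem bijective_of {R : Type*} [CommRing R] (f : K0 p →+* R) (κ : R →+* MvPolynomial ℕ (ZMod p))
    (tf : ∀ y, (p : R) * y = 0 → y = 0)
    (hX : ∀ i, κ (f (X i)) = X i) (hr : ∀ y, y ∈ RatIm f) : Function.Bijective f := by
  have h1 : κ.comp f = MvPolynomial.map (Z0.lift ploc_zmod) := by
    apply MvPolynomial.ringHom_ext'
    · exact Z0.hom_ext _ _
    · intro i
      rw [RingHom.comp_apply, hX, map_X]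
  have h2 : ∀ (x : K0 p) (y : R), f x = (p : R) * y → ∃ x', x = (p : K0 p) * x' ∧ f x' = y := by
    intro x y h
    have h3 : MvPolynomial.map (Z0.lift ploc_zmod) x = 0 := by
      rw [← h1, RingHom.comp_apply, h, map_mul, map_natCast, ← map_natCast (C : ZMod p →+* _),
        ZMod.natCast_self, map_zero, zero_mul]
    obtain ⟨x', hx'⟩ := (MvPolynomial.C_dvd_iff_map_hom_eq_zero _ (p : Z0 p) dvd_of_red x).2 h3
    rw [map_natCast] at hx'
    refine ⟨x', hx', ?_⟩
    rw [← sub_eq_zero]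
    apply tf
    rw [mul_sub, ← h, hx', map_mul, map_natCast, sub_self]
  constructor
  · rw [injective_iff_map_eq_zero]
    intro x hx
    have h3 : ∀ k : ℕ, ∃ x', x = (p : K0 p) ^ k * x' ∧ f x' = 0 := by
      intro k
      induction k with
      | zero => exact ⟨x, by simp, hx⟩
      | succ k ih =>
        obtain ⟨x', h4, h5⟩ := ih
        obtain ⟨x'', h6, h7⟩ := h2 x' 0 (by rw [h5, mul_zero])
        exact ⟨x'', by rw [h4, h6, pow_succ, mul_assoc], h7⟩
    ext d
    refine eq_zero_of_dvd _ fun k => ?_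
    obtain ⟨x', h4, -⟩ := h3 k
    rw [h4, ← map_natCast (C : Z0 p →+* K0 p), ← map_pow, coeff_C_mul]
    exact dvd_mul_right _ _
  · have key : ∀ (n : ℕ) (m : ℤ), m.natAbs = n → m ≠ 0 → ∀ (y : R) (x : K0 p),
        (m : R) * y = f x → ∃ x', f x' = y := by
      intro n
      induction n using Nat.strong_induction_on with
      | _ n ih =>
        intro m hn hm y x h
        by_cases hd : (p : ℤ) ∣ m
        · obtain ⟨m', rfl⟩ := hd
          have hm' : m' ≠ 0 := right_ne_zero_of_mul hm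
          obtain ⟨x', -, h4⟩ := h2 x ((m' : R) * y) (by rw [← h]; push_cast; ring)
          refine ih m'.natAbs ?_ m' rfl hm' y x' h4.symm
          rw [← hn, Int.natAbs_mul, Int.natAbs_natCast]
          have h5 := Int.natAbs_pos.2 hm'
          have h6 := hp.out.one_lt
          nlinarith
        · obtain ⟨u, hu⟩ := Z0.isUnit ((ploc_Z0 p).map (C : Z0 p →+* K0 p)) ⟨m, hd⟩
          have hu' : (u : K0 p) = (m : K0 p) := hu
          refine ⟨↑u⁻¹ * x, ?_⟩
          rw [map_mul, ← h, ← map_intCast f, ← hu', ← mul_assoc, ← map_mul, Units.inv_mul,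
            map_one, one_mul]
    intro y
    obtain ⟨m, x, hm, h⟩ := hr y
    exact key _ m rfl hm y x h

end Vale.Agent.P251EJ76
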