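import Vale.Agent.P251EJ.Defs
import Vale.Agent.P251.X.HQ

/-!
# P251EJ, block EvenB: the sub-rows
-/

open CategoryTheory MonoidalCategory MonObj Limits Pretriangulated

set_option linter.unusedSectionVars false

universe u

noncomputable section

namespace Vale.Agent.P251EJ76

open Vale.Agent.P251 Vale.Agent.P251.S Vale.Agent.P251.T Vale.Agent.P251.M Vale.Agent.P251.F
  Vale.Agent.P251.I EvenSpheres Vale.Agent.P257.H80 Vale.Agent.P221.H246 Vale.Agent.P251EJ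

variable (𝒯 : Type u) [Category.{0} 𝒯] [Preadditive 𝒯] [HasZeroObject 𝒯]
    [HasShift 𝒯 ℤ] [∀ n : ℤ, (shiftFunctor 𝒯 n).Additive] [Pretriangulated 𝒯] [IsTriangulated 𝒯]
    [MonoidalCategory 𝒯] [SymmetricCategory 𝒯] [TensorTriangulated 𝒯] [MonoidalClosed 𝒯]
    [HasCoproducts.{0} 𝒯] [HasProducts.{0} 𝒯] [StableCat 𝒯]

variable {𝒯} in
/-- the output of `exists_HQ` -/
structure IsHQ (K : 𝒯) [MonObj K] : Prop where
  conc : ∀ k : ℤ, k ≠ 0 → ∀ g : (𝟙_ 𝒯)⟦k⟧ ⟶ K, g = 0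
  ne : MonObj.one (X := K) ≠ 0
  div : ∀ m : ℤ, m ≠ 0 → Function.Bijective (fun f : 𝟙_ 𝒯 ⟶ K => m • f)
  gen : ∀ f : 𝟙_ 𝒯 ⟶ K, ∃ a m : ℤ, m ≠ 0 ∧ m • f = a • MonObj.one (X := K)

/-- row E1: the kernel of the rational Hurewicz map `π_* X → π_*(HQ ⊗ X)` is torsion -/
def RatInj : Prop :=
  ∀ (_ : SpaceFunctor 𝒯) (K : 𝒯) [MonObj K] [IsCommMonObj K], Serre 𝒯 → IsHQ K →
    ∀ (X : 𝒯) (n : ℤ) (y : (𝟙_ 𝒯)⟦n⟧ ⟶ X), y ≫ (λ_ X).inv ≫ (η[K] ▷ X) = 0 →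
      ∃ m : ℤ, m ≠ 0 ∧ m • y = 0

/-- row E2: the monoid map `MU ⟶ HQ`, with the additive law -/
def MUtoQ : Prop :=
  ∀ (D : MUData 𝒯) (K : 𝒯) [MonObj K] [IsCommMonObj K], IsHQ K →
    ∃ (k : D.R ⟶ K) (_ : IsMonHom k), lawOf k = F.addLaw _

end Vale.Agent.P251EJ76
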