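import Vale.Agent.P251EJ76.Main
import Vale.Agent.P251EJ59.RatInj
import Vale.Agent.P251EJ13.MUtoQ

/-!
# P251EJ, block EvenB: the plug
-/

open CategoryTheory MonoidalCategory Limits Pretriangulated

universe u

namespace Vale.Agent.P251EJ76

open Vale.Agent.P251 Vale.Agent.P251.S Vale.Agent.P251.T Vale.Agent.P251.M Vale.Agent.P251.I

/-- **block EvenB** -/
theorem evenB (𝒯 : Type u) [Category.{0} 𝒯] [Preadditive 𝒯] [HasZeroObject 𝒯]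
    [HasShift 𝒯 ℤ] [∀ n : ℤ, (shiftFunctor 𝒯 n).Additive] [Pretriangulated 𝒯] [IsTriangulated 𝒯]
    [MonoidalCategory 𝒯] [SymmetricCategory 𝒯] [TensorTriangulated 𝒯] [MonoidalClosed 𝒯]
    [HasCoproducts.{0} 𝒯] [HasProducts.{0} 𝒯] [StableCat 𝒯] : P251EJ.EvenB 𝒯 :=
  evenB_of 𝒯 (P251EJ59.ratInj 𝒯) (P251EJ13.muToQ 𝒯)

end Vale.Agent.P251EJ76
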