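import Vale.Agent.P251EJ76.Defs
import Vale.Agent.P251EJ76.Alg

/-!
# P251EJ, block EvenB: the assembly
-/

open CategoryTheory MonoidalCategory MonObj Limits Pretriangulated

set_option linter.unusedSectionVars false

universe u

noncomputable section

namespace Vale.Agent.P251EJ76

open Vale.Agent.P251 Vale.Agent.P251.S Vale.Agent.P251.T Vale.Agent.P251.M Vale.Agent.P251.F
  Vale.Agent.P251.I EvenSpheres Vale.Agent.P257.H80 Vale.Agent.P221.H246 Vale.Agent.P251EJ
  Vale.Agent.P221.H746 Vale.Agent.P093.N0 Vale.Agent.P221.T.H520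

variable {𝒯 : Type u} [Category.{0} 𝒯] [Preadditive 𝒯] [HasZeroObject 𝒯]
    [HasShift 𝒯 ℤ] [∀ n : ℤ, (shiftFunctor 𝒯 n).Additive] [Pretriangulated 𝒯] [IsTriangulated 𝒯]
    [MonoidalCategory 𝒯] [SymmetricCategory 𝒯] [TensorTriangulated 𝒯] [MonoidalClosed 𝒯]
    [HasCoproducts.{0} 𝒯] [HasProducts.{0} 𝒯] [StableCat 𝒯]

theorem map_apply {X Y : 𝒯} [MonObj X] [MonObj Y] (f : X ⟶ Y) [IsMonHom f]
    (y : HRing (stdEven 𝒯) X) (w : ℤ) :
    (HRing.map (E := stdEven 𝒯) f y w : (stdEven 𝒯).S w ⟶ Y) =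
      (y w : (stdEven 𝒯).S w ⟶ X) ≫ f := by
  induction y using DirectSum.induction_on with
  | zero =>
    rw [map_zero, DirectSum.zero_apply, DirectSum.zero_apply, zero_comp]
  | of v a =>
    change (HRing.map (E := stdEven 𝒯) f (HRing.of (stdEven 𝒯) X v a)) w = _
    rw [HRing.map_of]
    by_cases h : v = w
    · subst h
      rw [DirectSum.of_eq_same, DirectSum.of_eq_same]
    · rw [DirectSum.of_eq_of_ne _ _ _ (Ne.symm h), DirectSum.of_eq_of_ne _ _ _ (Ne.symm h),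
        zero_comp]
  | add x y hx hy =>
    rw [map_add, DirectSum.add_apply, DirectSum.add_apply, hx, hy, Preadditive.add_comp]

section HQ

variable {K : 𝒯} [MonObj K] [IsCommMonObj K] (hK : IsHQ K)

include hK

theorem IsHQ.ploc : PLoc 0 (HRing (stdEven 𝒯) K) :=
  pLoc_of_locO fun m hm => X.isIso_zsmul hK.conc (hK.div m fun h => hm (by simp [h]))

theorem IsHQ.rat (a : HRing (stdEven 𝒯) K) : a ∈ RatIm (Int.castRingHom (HRing (stdEven 𝒯) K)) := by
  induction a using DirectSum.induction_on with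
  | zero => exact zero_mem _
  | add x y hx hy => exact add_mem hx hy
  | of w a =>
    change HRing.of (stdEven 𝒯) K w a ∈ _
    by_cases hw : w = 0
    · subst hw
      obtain ⟨c, m, hm, h⟩ := hK.gen ((stdEven 𝒯).zero.hom ≫ a)
      refine ⟨m, c, hm, ?_⟩
      have h1 : m • a = c • ((stdEven 𝒯).zero.inv ≫ η[K]) := by
        rw [← Preadditive.comp_zsmul, ← h, Preadditive.comp_zsmul, Iso.inv_hom_id_assoc]
      rw [← of_zsmul', h1, of_zsmul', of_one, _root_.mul_one]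
      rfl
    · have h1 : a = 0 := by
        rw [← cancel_epi (stdSph w).inv, comp_zero]
        exact hK.conc (2 * w) (by omega) _
      rw [h1]
      have h2 : HRing.of (stdEven 𝒯) K w 0 = 0 := map_zero (DirectSum.of ((stdEven 𝒯).Gr K) w)
      rw [h2]
      exact zero_mem _

end HQ

variable {F : SpaceFunctor 𝒯} {e : F.S.obj CCF ≅ (stdEven 𝒯).L} {D : MUData 𝒯} {p : ℕ}
  [hp : Fact p.Prime] {B : 𝒯} [MonObj B] [IsCommMonObj B] {b : D.R ⟶ B} [IsMonHom b]
  {Φ : MvPolynomial ℕ ℤ →+* HRing (stdEven 𝒯) B}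

/-- the even homotopy of `B` has no torsion -/
theorem tf_all (hD : MUUniv e D) (hA : MUAll D) (hb : IsBPMon p b) (w : ℤ) :
    ∀ (n : ℕ) (m : ℤ), m.natAbs = n → m ≠ 0 → ∀ a : (stdEven 𝒯).S w ⟶ B, m • a = 0 → a = 0 := by
  intro n
  induction n using Nat.strong_induction_on with
  | _ n ih =>
    intro m hn hm a h
    by_cases hd : (p : ℤ) ∣ m
    · obtain ⟨m', rfl⟩ := hd
      have hm' : m' ≠ 0 := right_ne_zero_of_mul hm
      refine ih m'.natAbs ?_ m' rfl hm' a
        ((good_bp hD hA hb).tfE w _ (by rw [smul_smul, h]))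
      rw [← hn, Int.natAbs_mul, Int.natAbs_natCast]
      have h5 := Int.natAbs_pos.2 hm'
      have h6 := hp.out.one_lt
      nlinarith
    · exact zero_of_smul_of_local hb.loc hd a h

/-- the rational Hurewicz map of `B` is injective -/
theorem hur_injective (h1 : RatInj 𝒯) (hS : Serre 𝒯) (hD : MUUniv e D) (hA : MUAll D)
    (hb : IsBPMon p b) {K : 𝒯} [MonObj K] [IsCommMonObj K] (hK : IsHQ K) :
    Function.Injective (HRing.map (E := stdEven 𝒯) (inrM K B)) := by
  rw [injective_iff_map_eq_zero]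
  intro y hy
  refine DFinsupp.ext fun w => ?_
  have h2 := map_apply (inrM K B) y w
  rw [hy, DirectSum.zero_apply] at h2
  obtain ⟨m, hm, h3⟩ := h1 F K hS hK B (2 * w) ((stdSph w).inv ≫ (y w : (stdEven 𝒯).S w ⟶ B)) (by
    rw [Category.assoc]
    change (stdSph w).inv ≫ (y w : (stdEven 𝒯).S w ⟶ B) ≫ inrM K B = 0
    rw [← h2, comp_zero])
  refine tf_all hD hA hb w _ m rfl hm (y w) ?_
  rw [← cancel_epi (stdSph w).inv, Preadditive.comp_zsmul, h3, comp_zero]

/-- the image of `π_{2*}(HQ ⊗ MU)` in `π_{2*}(HQ ⊗ B)` -/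
theorem map_mem (hD : MUUniv e D) (hΦ : lawOf b = (haz p).map Φ) {K : 𝒯} [MonObj K]
    [IsCommMonObj K] (hK : IsHQ K) (k : D.R ⟶ K) [IsMonHom k] (hk : lawOf k = P251.F.addLaw _)
    (z : HRing (stdEven 𝒯) (K ⊗ D.R)) : HRing.map (E := stdEven 𝒯) (K ◁ b) z ∈
      RatIm ((HRing.map (E := stdEven 𝒯) (inrM K B)).comp Φ) := by
  obtain ⟨x, rfl⟩ := (polyK_bijective hD k).2 z
  induction x using MvPolynomial.induction_on with
  | C a =>
    rw [MvPolynomial.eval₂Hom_C]
    obtain ⟨m, c, hm, h⟩ := hK.rat a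
    refine RatIm.of_mul hm ?_
    rw [← map_intCast (HRing.map (E := stdEven 𝒯) (K ◁ b)), ← map_mul,
      ← map_intCast (HRing.map (E := stdEven 𝒯) (inlM K D.R)), ← map_mul, h, eq_intCast,
      map_intCast, map_intCast]
    exact intCast_mem _ _
  | add x y hx hy =>
    rw [map_add, map_add]
    exact add_mem hx hy
  | mul_X x i hx =>
    rw [map_mul, map_mul]
    refine mul_mem hx ?_
    rw [MvPolynomial.eval₂Hom_X', ← InvSeries.c_map, ← ser_comp]
    refine c_mem (p := p) (hK.ploc.map (HRing.map (E := stdEven 𝒯) (inlM K B))) _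
      (ser_strict _ _) ?_ _
    have h1 : lawOf ((k ≫ inlM K D.R) ≫ K ◁ b) = P251.F.addLaw _ := by
      rw [lawOf_comp, lawOf_comp, hk, map_addLaw, map_addLaw]
    rw [← h1, ser_smul, lawOf_congr (S.inrM_whiskerLeft b), lawOf_comp, hΦ, Law.map_map]

theorem rat_surj (h1 : RatInj 𝒯) (h2 : MUtoQ 𝒯) (hS : Serre 𝒯) (hD : MUUniv e D) (hA : MUAll D)
    (hb : IsBPMon p b) (hΦ : lawOf b = (haz p).map Φ) (y : HRing (stdEven 𝒯) B) :
    y ∈ RatIm Φ := by
  obtain ⟨K, _, _, k0, k1, k2, k3⟩ := X.exists_HQ F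
  have hK : IsHQ K := ⟨k0, k1, k2, k3⟩
  obtain ⟨k, _, hk⟩ := h2 D K hK
  obtain ⟨Rp, _, _, l, _, hl, f, _, g, _, hlg, hfg, -⟩ := exists_retract hD hb
  induction y using DirectSum.induction_on with
  | zero => exact zero_mem _
  | add x y hx hy => exact add_mem hx hy
  | of w a =>
    change HRing.of (stdEven 𝒯) B w a ∈ _
    obtain ⟨m, z, hm, hz⟩ := (IsPLoc.isLocPi hl).num' ⟨2 * w, ⟨stdSph w⟩⟩ (a ≫ f)
    have h3 : m • a = z ≫ b := by
      rw [← hlg, ← Category.assoc, ← hz, Preadditive.zsmul_comp, Category.assoc, hfg,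
        Category.comp_id]
    refine RatIm.of_mul (m := m) (fun h => hm (by simp [h])) ?_
    rw [← of_zsmul', h3]
    obtain ⟨n, x, hn, hx⟩ := map_mem hD hΦ hK k hk
      (HRing.of (stdEven 𝒯) (K ⊗ D.R) w (z ≫ inrM K D.R))
    refine ⟨n, x, hn, hur_injective h1 hS hD hA hb hK ?_⟩
    rw [map_mul, map_intCast, HRing.map_of, Category.assoc, ← S.inrM_whiskerLeft, ← Category.assoc,
      ← HRing.map_of, hx, RingHom.comp_apply]

variable (𝒯) in
/-- **block EvenB** from the rows E1, E2 -/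
theorem evenB_of (h1 : RatInj 𝒯) (h2 : MUtoQ 𝒯) : EvenB 𝒯 := by
  intro F e D p _ B _ _ b _ hb Φ hS hD hA hΦ
  obtain ⟨κ, -, -, hκ⟩ := exists_kappa hD hA hb
  have h3 : κ.comp Φ = Vale.Agent.P221.H924.redP p := by
    apply haz_map_injective p (pLoc_of_char (Vale.Agent.P221.H924.natCast_zero p))
    rw [← Law.map_map, ← hΦ, hκ]
    rfl
  refine bijective_of _ κ (tf hD hA hb) (fun i => ?_) fun y => ?_
  · rw [PhiT_X, ← RingHom.comp_apply, h3, Vale.Agent.P221.H924.redP_X]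
  · obtain ⟨m, x, hm, hx⟩ := rat_surj h1 h2 hS hD hA hb hΦ y
    refine ⟨m, MvPolynomial.map (Int.castRingHom _) x, hm, ?_⟩
    rw [hx]
    have h4 : Φ = (PhiT (Vale.Agent.P221X.EXI.ell hb) Φ).comp
        (MvPolynomial.map (Int.castRingHom _)) := by
      apply MvPolynomial.ringHom_ext
      · intro r
        simp
      · intro i
        rw [RingHom.comp_apply, MvPolynomial.map_X, PhiT_X]
    exact DFunLike.congr_fun h4 x

end Vale.Agent.P251EJ76
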